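import Vale.Agent.P254.Sym3

/-!
The strong isotropic constant conjecture for centrally symmetric bodies in three dimensions.
-/

open Real

namespace Vale.Agent.Results.P254.CentrallySymmetric3

open Vale.Agent.P254

theorem result (K : Set (Fin 3 → ℝ)) (hK : IsBody K)
    (hsym : ∃ c : Fin 3 → ℝ, ∀ x ∈ K, (2 : ℝ) • c - x ∈ K) :
    isoConst K < isoConst (stdSimp 3) := by
  obtain ⟨c, hc⟩ := hsym
  have hd : (1 : Matrix (Fin 3) (Fin 3) ℝ).det ≠ 0 := by simp
  have hb : IsBody (affMap (-c) (1 : Matrix (Fin 3) (Fin 3) ℝ) '' K) := isBody_affMap hd hK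
  have hs : IsCentral (affMap (-c) (1 : Matrix (Fin 3) (Fin 3) ℝ) '' K) := by
    rintro _ ⟨x, hx, rfl⟩
    refine ⟨(2 : ℝ) • c - x, hc x hx, ?_⟩
    rw [affMap_apply, affMap_apply, Matrix.one_mulVec, Matrix.one_mulVec, two_smul]
    abel
  have h := Sym3.nrat_lt_one hb hs
  rw [nrat_affMap hd hK] at h
  rw [isoConst_eq, isoConst_stdSimp]
  refine rpow_lt_rpow (mul_nonneg (sxConst_pos 3).le (nrat_nonneg hK.2.1)) ?_ (by norm_num)
  calc sxConst 3 * nrat K < sxConst 3 * 1 := mul_lt_mul_of_pos_left h (sxConst_pos 3)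
    _ = _ := mul_one _

end Vale.Agent.Results.P254.CentrallySymmetric3
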