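import Vale.Agent.P254.FewVert

/-!
The strong isotropic constant conjecture for polytopes with at most `n + 2` vertices.
-/

namespace Vale.Agent.Results.P254.FewVertices

open Vale.Agent.P254

theorem result (n : ℕ) (hn : 1 ≤ n) (K : Set (Fin n → ℝ)) (hK : IsBody K)
    (S : Finset (Fin n → ℝ)) (hcard : S.card ≤ n + 2)
    (hS : convexHull ℝ (S : Set (Fin n → ℝ)) = K) :
    isoConst K ≤ isoConst (stdSimp n) ∧
      (isoConst K = isoConst (stdSimp n) → IsSimplexBody K) := by
  obtain ⟨h1, h2⟩ := fewVert_main hn hK S hcard hS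
  exact ⟨(isoConst_le_iff hn hK).2 h1, fun he => h2 ((isoConst_eq_iff hn hK).1 he)⟩

end Vale.Agent.Results.P254.FewVertices
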