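import Vale.Agent.P254.Reduce

/-!
The strong isotropic constant conjecture: monotonicity in the dimension and reduction to its
asymptotic form.
-/

open Real

namespace Vale.Agent.Results.P254.JoinReduction

open Vale.Agent.P254

theorem result :
    (∀ n N : ℕ, 1 ≤ n → n ≤ N → StrongAt N → StrongAt n) ∧
    (∀ n N : ℕ, 1 ≤ n → n ≤ N → IneqAt N → IneqAt n) ∧
    ((∀ n : ℕ, 1 ≤ n → IneqAt n) ↔ AsympSharp) :=
  ⟨fun _ _ h1 h2 h => strongAt_mono h1 h2 h, fun _ _ h1 h2 h => ineqAt_mono h1 h2 h,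
    ⟨asymp_of_ineq, fun h _ hn => ineq_of_asymp h hn⟩⟩

end Vale.Agent.Results.P254.JoinReduction
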