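import Vale.Agent.P254.PermAffine

/-!
The strong isotropic constant conjecture for affine images of permutation-invariant bodies,
in particular for bodies of revolution.
-/

open Real

namespace Vale.Agent.Results.P254.PermutationInvariant

open Vale.Agent.P254

theorem result (n : ℕ) (hn : 1 ≤ n) (K : Set (Fin n → ℝ)) (hK : IsBody K) :
    ((IsAffPermInvariant K ∨ IsRevolution K) →
      isoConst K ≤ isoConst (stdSimp n) ∧
        (isoConst K = isoConst (stdSimp n) → IsSimplexBody K)) ∧
      (IsOneSymm K → isoConst K ≤ sqrt (((n:ℝ) + 1) / (8 * ((n:ℝ) + 2)))) := by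
  refine ⟨fun hP => ?_, fun hs => (oneSym_bound hn hK hs).1⟩
  obtain ⟨h1, h2⟩ := affPerm_main hn hK (hP.elim id IsRevolution.affPerm)
  exact ⟨(isoConst_le_iff hn hK).2 h1, fun he => h2 ((isoConst_eq_iff hn hK).1 he)⟩

end Vale.Agent.Results.P254.PermutationInvariant
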